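import Vale.Agent.P346.Final

namespace Vale.Agent.Results.P346.Lower

open Vale.Agent.P346

theorem result : ∃ c : ℝ, 0 < c ∧ ∃ N : ℕ, ∀ (K : Type) [Field K] [CharZero K] (n : ℕ), N ≤ n →
    ∀ G : Circuit K (Fin n × Fin n × Fin n), G.Homogeneous → G.output = IMM K n n →
      (n : ℝ) ^ (c * Real.sqrt n) ≤ G.size :=
  ⟨1 / 512, by norm_num, ⌈Real.exp 7000⌉₊ ^ 2, fun _ _ _ _ hn G hG hout =>
    lower_bound hn G hG hout⟩

end Vale.Agent.Results.P346.Lower
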