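import Vale.Agent.P346.Final
import Vale.Agent.P346.Upper
import Vale.Agent.P346.MinSize

namespace Vale.Agent.Results.P346.Theta

open Vale.Agent.P346

theorem result : ∃ c C : ℝ, 0 < c ∧ 0 < C ∧ ∃ N : ℕ, ∀ (K : Type) [Field K] [CharZero K] (n : ℕ),
    N ≤ n → (n : ℝ) ^ (c * Real.sqrt n) ≤ minSize K n ∧
      (minSize K n : ℝ) ≤ (n : ℝ) ^ (C * Real.sqrt n) := by
  refine ⟨1 / 512, 3, by norm_num, by norm_num, max 9 (⌈Real.exp 7000⌉₊ ^ 2), ?_⟩
  intro K _ _ n hn
  obtain ⟨G, hG, hout, hsize⟩ := upper_bound K n ((le_max_left _ _).trans hn)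
  constructor
  · obtain ⟨G', hG', hout', hs'⟩ := Nat.sInf_mem (s := {s | ∃ G : Circuit K (Fin n × Fin n × Fin n),
      G.Homogeneous ∧ G.output = IMM K n n ∧ G.size = s}) ⟨_, G, hG, hout, rfl⟩
    rw [minSize, ← hs']
    exact lower_bound ((le_max_right _ _).trans hn) G' hG' hout'
  · have h1 : minSize K n ≤ n ^ (3 * Nat.sqrt n) :=
      (Nat.sInf_le (s := {s | ∃ G : Circuit K (Fin n × Fin n × Fin n),
        G.Homogeneous ∧ G.output = IMM K n n ∧ G.size = s}) ⟨G, hG, hout, rfl⟩).trans hsize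
    have h2 : (1 : ℝ) ≤ n := by
      have : 1 ≤ n := le_trans (by norm_num) ((le_max_left _ _).trans hn)
      exact_mod_cast this
    calc (minSize K n : ℝ) ≤ (n : ℝ) ^ (3 * Nat.sqrt n) := by exact_mod_cast h1
      _ = (n : ℝ) ^ ((3 * Nat.sqrt n : ℕ) : ℝ) := (Real.rpow_natCast _ _).symm
      _ ≤ _ := by
        refine Real.rpow_le_rpow_of_exponent_le h2 ?_
        push_cast
        have := Real.nat_sqrt_le_real_sqrt (a := n)
        linarith

end Vale.Agent.Results.P346.Theta
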